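import Vale.Agent.Lib.P295.Flows

/-!
Every polynomial Hamiltonian admits approximate flows (Lib file for P295).
-/

namespace Vale.Agent.P295

open MvPolynomial

/-- coefficient extraction -/
lemma coeff_extract {M : Type*} [AddCommGroup M] [Module ℂ M] (U : Submodule ℂ M) (n : ℕ) :
    ∀ h : ℕ → M, (∀ d : ℂ, ∑ j ∈ Finset.range (n + 1), d ^ j • h j ∈ U) →
      ∀ j, j < n + 1 → h j ∈ U := by
  induction n with
  | zero =>
    intro h hd j hj
    have := hd 1
    simp at this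
    obtain rfl : j = 0 := by omega
    exact this
  | succ n ih =>
    intro h hd
    have key : ∀ j, j < n + 1 → h j ∈ U := by
      intro j hj
      have h1 : ∀ i, i < n + 1 → (((2:ℂ) ^ i - 2 ^ (n+1)) • h i) ∈ U := by
        apply ih (fun i => ((2:ℂ) ^ i - 2 ^ (n+1)) • h i)
        intro d
        have e1 := hd (2 * d)
        have e2 := U.smul_mem ((2:ℂ) ^ (n+1)) (hd d)
        have e3 := U.sub_mem e1 e2
        rw [Finset.sum_range_succ, Finset.sum_range_succ (n := n+1), smul_add] at e3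
        have e4 : ∑ j ∈ Finset.range (n + 1), d ^ j • ((2:ℂ) ^ j - 2 ^ (n+1)) • h j =
          (∑ x ∈ Finset.range (n + 1), (2 * d) ^ x • h x + (2 * d) ^ (n + 1) • h (n + 1)) -
          ((2:ℂ) ^ (n + 1) • ∑ x ∈ Finset.range (n + 1), d ^ x • h x +
            (2:ℂ) ^ (n + 1) • d ^ (n + 1) • h (n + 1)) := by
          rw [Finset.smul_sum]
          have : ∑ j ∈ Finset.range (n + 1), d ^ j • ((2:ℂ) ^ j - 2 ^ (n+1)) • h j =
            ∑ x ∈ Finset.range (n + 1), (2 * d) ^ x • h x -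
              ∑ x ∈ Finset.range (n + 1), (2:ℂ) ^ (n + 1) • d ^ x • h x := by
            rw [← Finset.sum_sub_distrib]
            apply Finset.sum_congr rfl
            intro i _
            rw [smul_smul, smul_smul, ← sub_smul]
            congr 1
            ring
          rw [this, smul_smul, mul_pow]
          abel
        rw [e4]
        exact e3
      have h2 := h1 j hj
      have h3 : ((2:ℂ) ^ j - 2 ^ (n+1)) ≠ 0 := by
        rw [sub_ne_zero]
        intro h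
        have h' : (2:ℝ) ^ j = 2 ^ (n+1) := by exact_mod_cast h
        have := pow_right_injective₀ (by norm_num : (0:ℝ) < 2) (by norm_num) h'
        omega
      have h4 := U.smul_mem ((2:ℂ) ^ j - 2 ^ (n+1))⁻¹ h2
      rwa [smul_smul, inv_mul_cancel₀ h3, one_smul] at h4
    intro j hj
    rcases Nat.lt_succ_iff_lt_or_eq.mp hj with h1 | rfl
    · exact key j h1
    · have h1 := hd 1
      rw [Finset.sum_range_succ] at h1
      simp only [one_pow, one_smul] at h1
      have h2 : ∑ x ∈ Finset.range (n + 1), h x ∈ U :=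
        Submodule.sum_mem _ (fun i hi => key i (Finset.mem_range.mp hi))
      have := U.sub_mem h1 h2
      simpa using this

/-- span of `x^k (V + d W)^n` -/
noncomputable def Uspan : Submodule ℂ T3 :=
  Submodule.span ℂ {P | ∃ (d : ℂ) (k n : ℕ), P = X 0 ^ k * (ell d) ^ n}

lemma mono_mem (k m n : ℕ) : (X 0 ^ k * X 1 ^ m * X 2 ^ n : T3) ∈ Uspan := by
  have h := coeff_extract Uspan (m + n)
    (fun j => ((m+n).choose j : ℂ) • (X 0 ^ k * X 1 ^ (m + n - j) * X 2 ^ j : T3)) (by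
      intro d
      have h1 : (X 0 ^ k * (ell d) ^ (m+n) : T3) ∈ Uspan := Submodule.subset_span ⟨d, k, m+n, rfl⟩
      have h2 : (X 0 ^ k * (ell d) ^ (m+n) : T3) = ∑ j ∈ Finset.range (m + n + 1),
          d ^ j • (((m+n).choose j : ℂ) • (X 0 ^ k * X 1 ^ (m + n - j) * X 2 ^ j : T3)) := by
        rw [ell, add_comm (X 1 : T3), add_pow, Finset.mul_sum]
        apply Finset.sum_congr rfl
        intro j _
        rw [mul_pow, ← C_pow, smul_smul, MvPolynomial.smul_eq_C_mul, C_mul]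
        simp only [map_natCast]
        ring
      rw [← h2]
      exact h1) n (by omega)
  have h3 : ((m+n).choose n : ℂ) ≠ 0 := by
    exact_mod_cast (Nat.choose_pos (by omega)).ne'
  have h4 := Uspan.smul_mem ((m+n).choose n : ℂ)⁻¹ h
  simp only [smul_smul, inv_mul_cancel₀ h3, one_smul] at h4
  simpa using h4

lemma Uspan_top (H : T3) : H ∈ Uspan := by
  induction H using MvPolynomial.induction_on' with
  | monomial s a =>
    have : (monomial s a : T3) = a • (X 0 ^ (s 0) * X 1 ^ (s 1) * X 2 ^ (s 2)) := by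
      rw [MvPolynomial.monomial_eq, MvPolynomial.smul_eq_C_mul]
      congr 1
      rw [Finsupp.prod_fintype _ _ (by simp)]
      simp [Fin.prod_univ_three]
    rw [this]
    exact Uspan.smul_mem _ (mono_mem _ _ _)
  | add p q hp hq => exact Uspan.add_mem hp hq

lemma Ex2_gen (c d : ℂ) (k n : ℕ) : Ex2 (C c * (X 0 ^ k * (ell d) ^ n)) := by
  cases n with
  | zero =>
    refine ⟨AlgEquiv.refl, rfl, fun a => ⟨0, ?_⟩⟩
    have : Ham (C c * (X 0 ^ k * ell d ^ 0)) a = 0 := by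
      simp only [Ham_apply, pow_zero, mul_one, Derivation.leibniz, Derivation.leibniz_pow,
        pderiv_C, pderiv_X]
      simp
    rw [this]
    simp
  | succ n =>
    have : C c * (X 0 ^ k * (ell d) ^ (n+1)) = HH (c * (n+1)) d k n := by
      rw [HH]
      have h0 : (n : ℂ) + 1 ≠ 0 := by exact_mod_cast Nat.succ_ne_zero n
      rw [mul_div_assoc, div_self h0, mul_one]
      ring
    rw [this]
    exact ⟨_, flow2_shear _ _ _ _⟩

lemma Ex2_all (H : T3) : Ex2 H := by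
  have key : ∀ P ∈ Uspan, ∀ c : ℂ, Ex2 (C c * P) := by
    intro P hP
    induction hP using Submodule.span_induction with
    | mem x hx =>
      obtain ⟨d, k, n, rfl⟩ := hx
      intro c
      exact Ex2_gen c d k n
    | zero =>
      intro c
      have := Ex2_gen 0 0 0 0
      simpa using this
    | add x y _ _ hx hy =>
      intro c
      rw [mul_add]
      exact (hx c).add (hy c)
    | smul a x _ hx =>
      intro c
      rw [MvPolynomial.smul_eq_C_mul, ← mul_assoc, ← C_mul]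
      exact hx _
  have := key H (Uspan_top H) 1
  simpa using this

/-- existence of an automorphism which is the `x`-flow of `H` to second order -/
def Ex1 (H : T3) : Prop := ∃ ρ : T3 ≃ₐ[ℂ] T3, Flow1 ρ (Ham H)

lemma Ex1.add {H1 H2 : T3} (h1 : Ex1 H1) (h2 : Ex1 H2) : Ex1 (H1 + H2) := by
  obtain ⟨ρ1, h1⟩ := h1
  obtain ⟨ρ2, h2⟩ := h2
  obtain ⟨ρ3, h3⟩ := Ex2_all (C (-1/2) * Ham H1 H2)
  refine ⟨(ρ3.trans (ρ2.trans ρ1)), by simp [h1.1, h2.1, h3.1], fun a => ?_⟩
  have hC : ∀ (ρ : T3 ≃ₐ[ℂ] T3), ρ (C (1/2)) = C (1/2) := fun ρ => by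
    simpa [MvPolynomial.algebraMap_eq] using ρ.commutes (1/2)
  obtain ⟨e, he⟩ := h3.2 a
  set K := Ham (C (-1/2) * Ham H1 H2) a with hK
  have hK' : C (2:ℂ) * K = -(Ham H1 (Ham H2 a) - Ham H2 (Ham H1 a)) := by
    rw [hK, Ham_C_mul, ← Ham_comm, ← mul_assoc, ← C_mul]
    norm_num
  obtain ⟨e2, he2⟩ := h2.2 a
  obtain ⟨e2', he2'⟩ := h2.2 K
  obtain ⟨e1, he1⟩ := h1.2 a
  obtain ⟨e1', he1'⟩ := h1.2 (Ham H2 a)
  obtain ⟨e1'', he1''⟩ := h1.2 (Ham H2 (Ham H2 a))
  obtain ⟨e1K, he1K⟩ := h1.2 K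
  have hfin : (ρ3.trans (ρ2.trans ρ1)) a = ρ1 (ρ2 (ρ3 a)) := rfl
  have s3 : ρ2 (ρ3 a) = ρ2 a + X 0 ^ 2 * ρ2 K + X 0 ^ 3 * ρ2 e := by
    rw [he, map_add, map_add, map_mul, map_mul, map_pow, map_pow, h2.1]
  have s2 : ρ1 (ρ2 (ρ3 a)) = ρ1 a + X 0 * ρ1 (Ham H2 a) +
      X 0 ^ 2 * (C (1/2) * ρ1 (Ham H2 (Ham H2 a))) + X 0 ^ 2 * ρ1 K
      + X 0 ^ 3 * (ρ1 e2 + ρ1 (Ham H2 K) + X 0 * (C (1/2) * ρ1 (Ham H2 (Ham H2 K)))
        + X 0 ^ 2 * ρ1 e2' + ρ1 (ρ2 e)) := by
    rw [s3, he2, he2']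
    simp only [map_add, map_mul, map_pow, h1.1, hC]
    ring
  have hh := half_two
  have h2C : (C (2:ℂ) : T3) = 2 := map_ofNat C 2
  rw [h2C] at hK'
  have hk : X 0 ^ 2 * (C (1/2) * (Ham H1 (Ham H1 a) + Ham H2 (Ham H1 a)
      + (Ham H1 (Ham H2 a) + Ham H2 (Ham H2 a))))
      = X 0 ^ 2 * (C (1/2) * Ham H1 (Ham H1 a)) + X 0 ^ 2 * Ham H1 (Ham H2 a)
        + X 0 ^ 2 * (C (1/2) * Ham H2 (Ham H2 a)) + X 0 ^ 2 * K := by
    linear_combination (-(X 0 : T3) ^ 2 * C (1/2)) * hK' +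
      (X 0 ^ 2 * K + X 0 ^ 2 * Ham H1 (Ham H2 a)) * hh
  refine ⟨e1 + C (1/2) * Ham H1 (Ham H1 (Ham H2 a)) + X 0 * e1' +
    C (1/2) * (Ham H1 (Ham H2 (Ham H2 a)) + X 0 * (C (1/2) * Ham H1 (Ham H1 (Ham H2 (Ham H2 a))))
      + X 0 ^ 2 * e1'') + Ham H1 K + X 0 * (C (1/2) * Ham H1 (Ham H1 K)) + X 0 ^ 2 * e1K +
    (ρ1 e2 + ρ1 (Ham H2 K) + X 0 * (C (1/2) * ρ1 (Ham H2 (Ham H2 K)))
        + X 0 ^ 2 * ρ1 e2' + ρ1 (ρ2 e)), ?_⟩
  rw [hfin, s2, he1, he1', he1'', he1K]
  simp only [Ham_add, map_add]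
  linear_combination -hk

lemma Ex1_gen (c d : ℂ) (k n : ℕ) : Ex1 (C c * (X 0 ^ k * (ell d) ^ n)) := by
  cases n with
  | zero =>
    have h0 : ∀ a, Ham (C c * (X 0 ^ k * ell d ^ 0)) a = 0 := by
      intro a
      simp only [Ham_apply, pow_zero, mul_one, Derivation.leibniz, Derivation.leibniz_pow,
        pderiv_C, pderiv_X]
      simp
    refine ⟨AlgEquiv.refl, rfl, fun a => ⟨0, ?_⟩⟩
    rw [h0, h0]
    simp
  | succ n =>
    have : C c * (X 0 ^ k * (ell d) ^ (n+1)) = HH (c * (n+1)) d k n := by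
      rw [HH]
      have h0 : (n : ℂ) + 1 ≠ 0 := by exact_mod_cast Nat.succ_ne_zero n
      rw [mul_div_assoc, div_self h0, mul_one]
      ring
    rw [this]
    exact ⟨_, flow1_shear _ _ _ _⟩

lemma Ex1_all (H : T3) : Ex1 H := by
  have key : ∀ P ∈ Uspan, ∀ c : ℂ, Ex1 (C c * P) := by
    intro P hP
    induction hP using Submodule.span_induction with
    | mem x hx =>
      obtain ⟨d, k, n, rfl⟩ := hx
      intro c
      exact Ex1_gen c d k n
    | zero =>
      intro c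
      have := Ex1_gen 0 0 0 0
      simpa using this
    | add x y _ _ hx hy =>
      intro c
      rw [mul_add]
      exact (hx c).add (hy c)
    | smul a x _ hx =>
      intro c
      rw [MvPolynomial.smul_eq_C_mul, ← mul_assoc, ← C_mul]
      exact hx _
  have := key H (Uspan_top H) 1
  simpa using this

end Vale.Agent.P295
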