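import Vale.Agent.Lib.P295.Defs
import Vale.Agent.Lib.P295.Density

/-!
Extension of automorphisms to `ℂ[x,y,z,u]` (Lib file for P295).
-/

namespace Vale.Agent.P295

open MvPolynomial

abbrev R4 := MvPolynomial (Fin 4) ℂ

/-- evaluation at `(x,v,w)` -/
noncomputable def kap : T3 →ₐ[ℂ] R4 := aeval ![X 0, venV, venW]

lemma kap_X0 : kap (X 0) = X 0 := by simp [kap]
lemma kap_X1 : kap (X 1) = venV := by simp [kap]
lemma kap_X2 : kap (X 2) = venW := by simp [kap]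
lemma kap_C (c : ℂ) : kap (C c) = C c := kap.commutes c

lemma venType_eq (Q : T3) : venType Q = X 1 + X 0 * kap Q := rfl

lemma rel_E : (X 1 * venW + venV ^ 2 : R4) = X 0 ^ 2 * venP := by
  simp only [venW, venV, venP]; ring

/-- the integrality condition -/
def Cond (ρ : T3 ≃ₐ[ℂ] T3) (R : T3) : Prop :=
  ∃ ζ : R4, (X 1 + X 0 * kap R) * ((X 1 + X 0 * kap R) * kap (ρ (X 2)) + kap (ρ (X 1)) ^ 2)
    - X 0 ^ 2 * kap (ρ (X 1)) = X 0 ^ 3 * ζ

lemma half_ext (ρ : T3 ≃ₐ[ℂ] T3) (R : T3) (h : Cond ρ R) :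
    ∃ s : R4 →ₐ[ℂ] R4, s (X 0) = X 0 ∧ s (X 1) = X 1 + X 0 * kap R ∧
      s venV = kap (ρ (X 1)) ∧ s venW = kap (ρ (X 2)) := by
  obtain ⟨ζ, hζ⟩ := h
  set y1 : R4 := X 1 + X 0 * kap R with hy1
  set v1 := kap (ρ (X 1))
  set w1 := kap (ρ (X 2))
  have hx : Prime (X 0 : R4) := MvPolynomial.X_prime
  have hx0 : (X 0 : R4) ≠ 0 := hx.ne_zero
  have hxy : ¬ (X 0 : R4) ∣ y1 := by
    intro hd
    have h1 : (X 0 : R4) ∣ X 1 := by
      have := dvd_sub hd (Dvd.intro (kap R) rfl : (X 0 : R4) ∣ X 0 * kap R)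
      simpa [hy1] using this
    rw [MvPolynomial.X_dvd_X] at h1
    exact absurd h1 (by decide)
  -- p'
  have e1 : X 0 ^ 2 * (v1 + X 0 * ζ) = y1 * (y1 * w1 + v1 ^ 2) := by
    linear_combination -hζ
  obtain ⟨p1, hp1⟩ := hx.pow_dvd_of_dvd_mul_left 2 hxy (Dvd.intro _ e1)
  have e2 : y1 * p1 = v1 + X 0 * ζ := by
    have : X 0 ^ 2 * (y1 * p1) = X 0 ^ 2 * (v1 + X 0 * ζ) := by
      rw [e1, hp1]; ring
    exact mul_left_cancel₀ (pow_ne_zero 2 hx0) this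
  -- z' = -ζ
  have e3 : X 0 ^ 2 * (p1 - ζ ^ 2) = y1 * (w1 + 2 * X 0 * (-ζ) * p1 + y1 * p1 ^ 2) := by
    have hv : v1 = y1 * p1 - X 0 * ζ := by rw [e2]; ring
    have : y1 * w1 = X 0 ^ 2 * p1 - (y1 * p1 - X 0 * ζ) ^ 2 := by
      rw [← hv, ← hp1]; ring
    linear_combination -this
  obtain ⟨u1, hu1⟩ := hx.pow_dvd_of_dvd_mul_left 2 hxy (Dvd.intro _ e3)
  have e4 : y1 * u1 = p1 - ζ ^ 2 := by
    have : X 0 ^ 2 * (y1 * u1) = X 0 ^ 2 * (p1 - ζ ^ 2) := by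
      rw [e3, hu1]; ring
    exact mul_left_cancel₀ (pow_ne_zero 2 hx0) this
  refine ⟨aeval ![X 0, y1, -ζ, u1], by simp, by simp, ?_, ?_⟩
  · have hp : aeval (R := ℂ) ![X 0, y1, -ζ, u1] venP = p1 := by
      simp only [venP, map_add, map_mul, map_pow, aeval_X]
      simp
      linear_combination e4
    rw [venV, map_add, map_mul, map_mul, hp]
    simp
    linear_combination e2
  · have hp : aeval (R := ℂ) ![X 0, y1, -ζ, u1] venP = p1 := by
      simp only [venP, map_add, map_mul, map_pow, aeval_X]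
      simp
      linear_combination e4
    rw [venW, map_sub, map_sub, map_mul, map_mul, map_mul, map_mul, map_mul, map_pow, map_pow, hp]
    simp only [map_ofNat, aeval_X, Matrix.cons_val_zero, Matrix.cons_val_one, Matrix.cons_val]
    linear_combination -hu1

/-- an endomorphism fixing `x, y, v, w` is the identity -/
lemma fix_id (s : R4 →ₐ[ℂ] R4) (h0 : s (X 0) = X 0) (h1 : s (X 1) = X 1) (hv : s venV = venV)
    (hw : s venW = venW) : s = AlgHom.id ℂ R4 := by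
  have hx0 : (X 0 : R4) ≠ 0 := MvPolynomial.X_ne_zero 0
  have hp : s venP = venP := by
    have := congrArg s rel_E
    simp only [map_add, map_mul, map_pow, h0, h1, hv, hw] at this
    rw [rel_E] at this
    exact (mul_left_cancel₀ (pow_ne_zero 2 hx0) this).symm
  have hz : s (X 2) = X 2 := by
    have := hv
    rw [venV, map_add, map_mul, map_mul, h0, h1, hp] at this
    exact mul_left_cancel₀ hx0 (add_right_cancel this)
  have hu : s (X 3) = X 3 := by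
    have := hw
    rw [venW, map_sub, map_sub, map_mul, map_mul, map_mul, map_mul, map_mul, map_pow, map_pow,
      h0, h1, hz, hp] at this
    simp only [map_ofNat] at this
    have h2 : (X 0 : R4) ^ 2 * s (X 3) = X 0 ^ 2 * X 3 := by
      linear_combination this
    exact mul_left_cancel₀ (pow_ne_zero 2 hx0) h2
  apply MvPolynomial.algHom_ext
  intro i
  fin_cases i
  · exact h0
  · exact h1
  · exact hz
  · exact hu

/-- relation between Vénéreau-type polynomials -/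
def Rel (f g : R4) : Prop := ∃ σ : R4 ≃ₐ[ℂ] R4, σ (X 0) = X 0 ∧ σ f = g

lemma Rel.trans {f g h : R4} (h1 : Rel f g) (h2 : Rel g h) : Rel f h := by
  obtain ⟨σ, a1, b1⟩ := h1
  obtain ⟨τ, a2, b2⟩ := h2
  exact ⟨σ.trans τ, by simp [a1, a2], by simp [b1, b2]⟩

lemma main_ext (ρ : T3 ≃ₐ[ℂ] T3) (hρ : ρ (X 0) = X 0) (Q Q' : T3)
    (h : Cond ρ (Q' - ρ Q)) (h' : Cond ρ.symm (Q - ρ.symm Q')) :
    Rel (venType Q) (venType Q') := by
  have hρ' : ρ.symm (X 0) = X 0 := by rw [AlgEquiv.symm_apply_eq, hρ]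
  obtain ⟨s, s0, s1, sv, sw⟩ := half_ext ρ _ h
  obtain ⟨t, t0, t1, tv, tw⟩ := half_ext ρ.symm _ h'
  have hs : ∀ a, s (kap a) = kap (ρ a) := by
    intro a
    have : s.comp kap = kap.comp (ρ : T3 →ₐ[ℂ] T3) := by
      apply MvPolynomial.algHom_ext
      intro i
      fin_cases i
      · change s (kap (X 0)) = kap (ρ (X 0))
        rw [kap_X0, hρ, kap_X0, s0]
      · change s (kap (X 1)) = kap (ρ (X 1))
        rw [kap_X1, sv]
      · change s (kap (X 2)) = kap (ρ (X 2))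
        rw [kap_X2, sw]
    exact congrArg (fun f => f a) this
  have ht : ∀ a, t (kap a) = kap (ρ.symm a) := by
    intro a
    have : t.comp kap = kap.comp (ρ.symm : T3 →ₐ[ℂ] T3) := by
      apply MvPolynomial.algHom_ext
      intro i
      fin_cases i
      · change t (kap (X 0)) = kap (ρ.symm (X 0))
        rw [kap_X0, hρ', kap_X0, t0]
      · change t (kap (X 1)) = kap (ρ.symm (X 1))
        rw [kap_X1, tv]
      · change t (kap (X 2)) = kap (ρ.symm (X 2))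
        rw [kap_X2, tw]
    exact congrArg (fun f => f a) this
  have hst : s.comp t = AlgHom.id ℂ R4 := by
    apply fix_id
    · change s (t (X 0)) = X 0
      rw [t0, s0]
    · change s (t (X 1)) = X 1
      rw [t1, map_add, map_mul, s0, s1, hs]
      simp only [map_sub, AlgEquiv.apply_symm_apply]
      ring
    · change s (t venV) = venV
      rw [tv, hs, AlgEquiv.apply_symm_apply, kap_X1]
    · change s (t venW) = venW
      rw [tw, hs, AlgEquiv.apply_symm_apply, kap_X2]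
  have hts : t.comp s = AlgHom.id ℂ R4 := by
    apply fix_id
    · change t (s (X 0)) = X 0
      rw [s0, t0]
    · change t (s (X 1)) = X 1
      rw [s1, map_add, map_mul, t0, t1, ht]
      simp only [map_sub, AlgEquiv.symm_apply_apply]
      ring
    · change t (s venV) = venV
      rw [sv, ht, AlgEquiv.symm_apply_apply, kap_X1]
    · change t (s venW) = venW
      rw [sw, ht, AlgEquiv.symm_apply_apply, kap_X2]
  refine ⟨AlgEquiv.ofAlgHom s t hst hts, s0, ?_⟩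
  change s (venType Q) = venType Q'
  rw [venType_eq, venType_eq, map_add, map_mul, s0, s1, hs, map_sub]
  ring

/-- tangency data: `D W = ε W`, `q W + 2 V D V = ε V²` -/
def Tang (D : Derivation ℂ T3 T3) (q ε : T3) : Prop :=
  D (X 2) = ε * X 2 ∧ q * X 2 + 2 * X 1 * D (X 1) = ε * X 1 ^ 2

lemma cond_flow2 (ρ : T3 ≃ₐ[ℂ] T3) (D : Derivation ℂ T3 T3) (q ε R' : T3) (hT : Tang D q ε)
    (h1 : ∃ e, ρ (X 1) = X 1 + X 0 ^ 2 * D (X 1) + X 0 ^ 3 * e)
    (h2 : ∃ e, ρ (X 2) = X 2 + X 0 ^ 2 * D (X 2) + X 0 ^ 3 * e) :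
    Cond ρ (X 0 * q + X 0 ^ 2 * R') := by
  obtain ⟨e1, h1⟩ := h1
  obtain ⟨e2, h2⟩ := h2
  obtain ⟨t1, t2⟩ := hT
  have t1' := congrArg kap t1
  have t2' := congrArg kap t2
  have h1' := congrArg kap h1
  have h2' := congrArg kap h2
  simp only [map_add, map_mul, map_pow, map_ofNat, kap_X0, kap_X1, kap_X2] at t1' t2' h1' h2'
  set a := kap (D (X 1))
  set b := kap (D (X 2))
  set Q := kap q
  set E := kap ε
  set f1 := kap e1
  set f2 := kap e2
  set r := kap R'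
  have hE := rel_E
  have hvp : (X 1 * venP - venV : R4) = - X 0 * X 2 := by rw [venV]; ring
  unfold Cond
  rw [h1', h2']
  simp only [map_add, map_mul, map_pow, kap_X0]
  change ∃ ζ : R4, (X 1 + X 0 * (X 0 * Q + X 0 ^ 2 * r)) * ((X 1 + X 0 * (X 0 * Q + X 0 ^ 2 * r)) *
    (venW + X 0 ^ 2 * b + X 0 ^ 3 * f2) + (venV + X 0 ^ 2 * a + X 0 ^ 3 * f1) ^ 2)
    - X 0 ^ 2 * (venV + X 0 ^ 2 * a + X 0 ^ 3 * f1) = X 0 ^ 3 * ζ
  -- y1 w1 + v1^2 = x^2 p (1 + x^2 E) + x^3 G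
  set G : R4 := r * venW + X 0 * Q * b + X 1 * f2 + X 0 ^ 2 * (Q * f2 + r * b) + X 0 ^ 3 * r * f2
    + 2 * venV * f1 + X 0 * a ^ 2 + 2 * X 0 ^ 2 * a * f1 + X 0 ^ 3 * f1 ^ 2 with hG
  have key : (X 1 + X 0 * (X 0 * Q + X 0 ^ 2 * r)) *
      (venW + X 0 ^ 2 * b + X 0 ^ 3 * f2) + (venV + X 0 ^ 2 * a + X 0 ^ 3 * f1) ^ 2
      = X 0 ^ 2 * venP * (1 + X 0 ^ 2 * E) + X 0 ^ 3 * G := by
    rw [hG]
    linear_combination (1 + X 0 ^ 2 * E) * hE + X 0 ^ 2 * t2' + X 0 ^ 2 * X 1 * t1'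
  rw [key]
  refine ⟨- X 2 + X 0 * (Q + X 0 * r) * venP * (1 + X 0 ^ 2 * E) + X 1 * venP * X 0 * E
    - X 0 * a - X 0 ^ 2 * f1 + (X 1 + X 0 * (X 0 * Q + X 0 ^ 2 * r)) * G, ?_⟩
  linear_combination X 0 ^ 2 * hvp

lemma cond_flow1 (ρ : T3 ≃ₐ[ℂ] T3) (D : Derivation ℂ T3 T3) (q ε R' : T3) (hT : Tang D q ε)
    (h1 : ∃ e, ρ (X 1) = X 1 + X 0 * D (X 1) + X 0 ^ 2 * (C (1/2) * D (D (X 1))) + X 0 ^ 3 * e)
    (h2 : ∃ e, ρ (X 2) = X 2 + X 0 * D (X 2) + X 0 ^ 2 * (C (1/2) * D (D (X 2))) + X 0 ^ 3 * e) :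
    Cond ρ (q + X 0 * (C (1/2) * D q) + X 0 ^ 2 * R') := by
  obtain ⟨e1, h1⟩ := h1
  obtain ⟨e2, h2⟩ := h2
  obtain ⟨t1, t2⟩ := hT
  have t3 := congrArg D t1
  have t4 := congrArg D t2
  simp only [Derivation.leibniz, Derivation.leibniz_pow, map_add, smul_eq_mul] at t3 t4
  have d2 : D (2 : T3) = 0 := by
    have : (2 : T3) = C 2 := (map_ofNat C 2).symm
    rw [this, MvPolynomial.derivation_C]
  rw [d2] at t4
  have t1' := congrArg kap t1
  have t2' := congrArg kap t2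
  have t3' := congrArg kap t3
  have t4' := congrArg kap t4
  have h1' := congrArg kap h1
  have h2' := congrArg kap h2
  have hh' := congrArg kap half_two
  simp only [map_add, map_mul, map_pow, map_ofNat, kap_X0, kap_X1, kap_X2, kap_C, map_one,
    nsmul_eq_mul, map_natCast, map_zero, smul_eq_mul] at t1' t2' t3' t4' h1' h2' hh'
  set a := kap (D (X 1))
  set b := kap (D (X 2))
  set a2 := kap (D (D (X 1)))
  set b2 := kap (D (D (X 2)))
  set Q := kap q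
  set dQ := kap (D q)
  set E := kap ε
  set dE := kap (D ε)
  set f1 := kap e1
  set f2 := kap e2
  set r := kap R'
  set hf : R4 := C (1/2)
  have hE := rel_E
  have hvp : (X 1 * venP - venV : R4) = - X 0 * X 2 := by rw [venV]; ring
  unfold Cond
  rw [h1', h2']
  simp only [map_add, map_mul, map_pow, kap_X0, kap_C]
  set y1 : R4 := X 1 + X 0 * (Q + X 0 * (hf * dQ) + X 0 ^ 2 * r) with hy1
  change ∃ ζ : R4, y1 * (y1 *
    (venW + X 0 * b + X 0 ^ 2 * (hf * b2) + X 0 ^ 3 * f2) +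
      (venV + X 0 * a + X 0 ^ 2 * (hf * a2) + X 0 ^ 3 * f1) ^ 2)
    - X 0 ^ 2 * (venV + X 0 * a + X 0 ^ 2 * (hf * a2) + X 0 ^ 3 * f1) = X 0 ^ 3 * ζ
  set G : R4 := (X 1 * f2 + Q * (hf * b2) + (hf * dQ) * b + r * venW + 2 * venV * f1
      + 2 * a * (hf * a2))
    + X 0 * (Q * f2 + (hf * dQ) * (hf * b2) + r * b + 2 * a * f1 + (hf * a2) ^ 2)
    + X 0 ^ 2 * ((hf * dQ) * f2 + r * (hf * b2) + 2 * (hf * a2) * f1)
    + X 0 ^ 3 * (r * f2 + f1 ^ 2) with hG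
  have key : y1 *
    (venW + X 0 * b + X 0 ^ 2 * (hf * b2) + X 0 ^ 3 * f2) +
      (venV + X 0 * a + X 0 ^ 2 * (hf * a2) + X 0 ^ 3 * f1) ^ 2
      = X 0 ^ 2 * venP * (1 + X 0 * E + X 0 ^ 2 * (hf * (dE + E ^ 2))) + X 0 ^ 3 * G := by
    rw [hG, hy1]
    linear_combination (1 + X 0 * E + X 0 ^ 2 * (hf * (dE + E ^ 2))) * hE + X 0 * t2'
      + X 0 * X 1 * t1' + hf * X 0 ^ 2 * (t4' + X 1 * t3' + E * t2' + (Q + X 1 * E) * t1')
      - X 0 ^ 2 * (Q * b + a ^ 2) * hh'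
  rw [key]
  refine ⟨- X 2 + y1 * venP * (E + X 0 * (hf * (dE + E ^ 2)))
    + (Q + X 0 * (hf * dQ) + X 0 ^ 2 * r) * venP - a - X 0 * (hf * a2) - X 0 ^ 2 * f1 + y1 * G, ?_⟩
  rw [hy1]
  linear_combination X 0 ^ 2 * hvp

end Vale.Agent.P295
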