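import Mathlib

/-!
Definitions used by the P295 statements.  `ℂ[x,y,z,u]` is `MvPolynomial (Fin 4) ℂ` with
`x = X 0`, `y = X 1`, `z = X 2`, `u = X 3`.
-/

namespace Vale.Agent.P295

open MvPolynomial

/-- `f` is a coordinate (variable) of `ℂ[X_0, …, X_{n-1}]`: the image of one of the
variables under a `ℂ`-algebra automorphism. -/
def IsCoord {n : ℕ} (f : MvPolynomial (Fin n) ℂ) : Prop :=
  ∃ (σ : MvPolynomial (Fin n) ℂ ≃ₐ[ℂ] MvPolynomial (Fin n) ℂ) (i : Fin n), σ (X i) = f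

/-- `p = y u + z²` -/
noncomputable def venP : MvPolynomial (Fin 4) ℂ := X 1 * X 3 + X 2 ^ 2

/-- `v = x z + y p` -/
noncomputable def venV : MvPolynomial (Fin 4) ℂ := X 0 * X 2 + X 1 * venP

/-- `w = x² u - 2 x z p - y p²` -/
noncomputable def venW : MvPolynomial (Fin 4) ℂ :=
  X 0 ^ 2 * X 3 - 2 * X 0 * X 2 * venP - X 1 * venP ^ 2

/-- The Vénéreau-type polynomial `y + x Q(x, v, w)` attached to `Q ∈ ℂ[x, v, w]`. -/
noncomputable def venType (Q : MvPolynomial (Fin 3) ℂ) : MvPolynomial (Fin 4) ℂ :=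
  X 1 + X 0 * aeval ![X 0, venV, venW] Q

/-- `Q(0, 0, t) ∈ ℂ[t]` for `Q ∈ ℂ[x, v, w]`. -/
noncomputable def pureW (Q : MvPolynomial (Fin 3) ℂ) : Polynomial ℂ :=
  aeval ![0, 0, Polynomial.X] Q

/-- `r_Q(t) = (∂Q/∂x)(0,0,t) + (t/4) ((∂Q/∂v)(0,0,t))² ∈ ℂ[t]`. -/
noncomputable def secondOrder (Q : MvPolynomial (Fin 3) ℂ) : Polynomial ℂ :=
  pureW (pderiv 0 Q) + Polynomial.C (1 / 4) * Polynomial.X * pureW (pderiv 1 Q) ^ 2

end Vale.Agent.P295
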