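import Vale.Agent.Lib.P295.Core

/-!
Normal form of Vénéreau-type polynomials (Lib file for P295).
-/

namespace Vale.Agent.P295

open MvPolynomial

lemma Tang.add {H1 H2 q1 q2 ε1 ε2 : T3} (h1 : Tang (Ham H1) q1 ε1) (h2 : Tang (Ham H2) q2 ε2) :
    Tang (Ham (H1 + H2)) (q1 + q2) (ε1 + ε2) := by
  obtain ⟨a1, b1⟩ := h1
  obtain ⟨a2, b2⟩ := h2
  refine ⟨?_, ?_⟩
  · rw [Ham_add, a1, a2]; ring
  · rw [Ham_add]
    linear_combination b1 + b2

lemma tang_mono (c : ℂ) (k i j : ℕ) :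
    ∃ H ε : T3, Tang (Ham H) (X 1 * (C c * (X 0 ^ k * X 1 ^ i * X 2 ^ j))) ε := by
  set n : ℂ := (i : ℂ) + 2 * j + 4 with hn
  have hn0 : n ≠ 0 := by
    rw [hn]
    have : ((i : ℂ) + 2 * j + 4) = ((i + 2 * j + 4 : ℕ) : ℂ) := by push_cast; ring
    rw [this, Nat.cast_ne_zero]
    omega
  have hcn : (C (c / n) : T3) * ((i : T3) + 2 * (j : T3) + 4) = C c := by
    have h1 : ((i : T3) + 2 * (j : T3) + 4) = C n := by
      have h2 : (C (2:ℂ) : T3) = 2 := map_ofNat C 2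
      have h4 : (C (4:ℂ) : T3) = 4 := map_ofNat C 4
      rw [hn, C_add, C_add, C_mul, h2, h4]
      simp
    rw [h1, ← C_mul]
    congr 1
    field_simp
  set H : T3 := - (C (c / n) * (X 0 ^ k * X 1 ^ i * X 2 ^ (j + 2))) with hH
  have d2 : pderiv 2 H = - (C (c / n) * ((j : T3) + 2) * (X 0 ^ k * X 1 ^ i * X 2 ^ (j + 1))) := by
    rw [hH]
    simp only [map_neg, Derivation.leibniz, Derivation.leibniz_pow, pderiv_C, pderiv_X, smul_eq_mul,
      Pi.single_apply]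
    simp
    ring
  rcases Nat.eq_zero_or_pos i with hi | hi
  · subst hi
    have d1 : pderiv 1 H = 0 := by
      rw [hH]
      simp only [map_neg, Derivation.leibniz, Derivation.leibniz_pow, pderiv_C, pderiv_X,
        smul_eq_mul, Pi.single_apply]
      simp
    refine ⟨H, 0, ?_, ?_⟩
    · rw [Ham_X2, d1]; simp
    · rw [Ham_X1, d2]
      simp only [Nat.cast_zero] at hcn
      linear_combination (-X 1 * X 0 ^ k * X 2 ^ (j+1)) * hcn
  · obtain ⟨m, rfl⟩ : ∃ m, i = m + 1 := ⟨i - 1, by omega⟩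
    have d1 : pderiv 1 H = - (C (c / n) * ((m : T3) + 1) * (X 0 ^ k * X 1 ^ m * X 2 ^ (j + 2))) := by
      rw [hH]
      simp only [map_neg, Derivation.leibniz, Derivation.leibniz_pow, pderiv_C, pderiv_X,
        smul_eq_mul, Pi.single_apply]
      simp
      ring
    refine ⟨H, C (c / n) * ((m : T3) + 1) * (X 0 ^ k * X 1 ^ m * X 2 ^ (j + 1)), ?_, ?_⟩
    · rw [Ham_X2, d1]; ring
    · rw [Ham_X1, d2]
      simp only [Nat.cast_add, Nat.cast_one] at hcn
      linear_combination (-X 1 ^ (m+2) * X 0 ^ k * X 2 ^ (j+1)) * hcn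

lemma tang_all (g : T3) : ∃ H ε : T3, Tang (Ham H) (X 1 * g) ε := by
  induction g using MvPolynomial.induction_on' with
  | monomial s a =>
    have : (monomial s a : T3) = C a * (X 0 ^ (s 0) * X 1 ^ (s 1) * X 2 ^ (s 2)) := by
      rw [MvPolynomial.monomial_eq]
      congr 1
      rw [Finsupp.prod_fintype _ _ (by simp)]
      simp [Fin.prod_univ_three]
    rw [this]
    exact tang_mono _ _ _ _
  | add p q hp hq =>
    obtain ⟨H1, ε1, h1⟩ := hp
    obtain ⟨H2, ε2, h2⟩ := hq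
    refine ⟨H1 + H2, ε1 + ε2, ?_⟩
    rw [mul_add]
    exact h1.add h2

/-- restriction to `x = v = 0` -/
noncomputable def e0 : T3 →ₐ[ℂ] T3 := aeval ![0, 0, X 2]

noncomputable def pureP : T3 →ₐ[ℂ] Polynomial ℂ := aeval ![0, 0, Polynomial.X]

lemma pureP_X0 : pureP (X 0) = 0 := by simp [pureP]
lemma pureP_X1 : pureP (X 1) = 0 := by simp [pureP]
lemma pureP_X2 : pureP (X 2) = Polynomial.X := by simp [pureP]
lemma pureP_C (c : ℂ) : pureP (C c) = Polynomial.C c := pureP.commutes c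

lemma e0_eq (Q : T3) : e0 Q = Polynomial.aeval (X 2 : T3) (pureP Q) := by
  have : e0 = (Polynomial.aeval (X 2 : T3)).comp pureP := by
    apply MvPolynomial.algHom_ext
    intro i
    fin_cases i
    · change e0 (X 0) = Polynomial.aeval (X 2 : T3) (pureP (X 0))
      rw [pureP_X0]; simp [e0]
    · change e0 (X 1) = Polynomial.aeval (X 2 : T3) (pureP (X 1))
      rw [pureP_X1]; simp [e0]
    · change e0 (X 2) = Polynomial.aeval (X 2 : T3) (pureP (X 2))
      rw [pureP_X2]; simp [e0]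
  exact congrArg (fun f => f Q) this

lemma kap_e0 (Q : T3) : kap (e0 Q) = Polynomial.aeval venW (pureP Q) := by
  rw [e0_eq]
  have : kap.comp (Polynomial.aeval (X 2 : T3)) = Polynomial.aeval (R := ℂ) venW := by
    apply Polynomial.algHom_ext
    simp [kap_X2]
  exact congrArg (fun f => f (pureP Q)) this

lemma decomp (Q : T3) : ∃ G Q1 : T3, Q = e0 Q + X 1 * G + X 0 * Q1 := by
  induction Q using MvPolynomial.induction_on with
  | C c => exact ⟨0, 0, by simp [e0]⟩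
  | add p q hp hq =>
    obtain ⟨G1, Q1, h1⟩ := hp
    obtain ⟨G2, Q2, h2⟩ := hq
    refine ⟨G1 + G2, Q1 + Q2, ?_⟩
    rw [map_add]
    linear_combination h1 + h2
  | mul_X p i hp =>
    obtain ⟨G1, Q1, h1⟩ := hp
    fin_cases i
    · refine ⟨0, p, ?_⟩
      simp [e0]
      ring
    · refine ⟨p, 0, ?_⟩
      simp [e0]
      ring
    · refine ⟨G1 * X 2, Q1 * X 2, ?_⟩
      have : e0 (X 2) = X 2 := by simp [e0]
      change p * X 2 = e0 (p * X 2) + _ + _
      rw [map_mul, this]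
      linear_combination (X 2 : T3) * h1

lemma rel_b (Q g R : T3) : Rel (venType Q) (venType (Q + X 0 * (X 1 * g) + X 0 ^ 2 * R)) := by
  obtain ⟨H, ε, hT⟩ := tang_all g
  obtain ⟨ρ, hρ⟩ := Ex2_all H
  have hs := hρ.symm
  have hT' : Tang (Ham (-H)) (-(X 1 * g)) (-ε) := by
    refine ⟨?_, ?_⟩
    · rw [Ham_neg, hT.1]; ring
    · rw [Ham_neg]; linear_combination -hT.2
  apply main_ext ρ hρ.1
  · obtain ⟨e, he⟩ := hρ.2 Q
    have := cond_flow2 ρ (Ham H) (X 1 * g) ε (R - Ham H Q - X 0 * e) hT (hρ.2 _) (hρ.2 _)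
    convert this using 1
    rw [he]; ring
  · obtain ⟨e, he⟩ := hs.2 (Q + X 0 * (X 1 * g) + X 0 ^ 2 * R)
    have h1 : ∃ e, ρ.symm (X 1) = X 1 + X 0 ^ 2 * Ham (-H) (X 1) + X 0 ^ 3 * e := by
      obtain ⟨e, he⟩ := hs.2 (X 1)
      exact ⟨e, by rw [he, Ham_neg]; ring⟩
    have h2 : ∃ e, ρ.symm (X 2) = X 2 + X 0 ^ 2 * Ham (-H) (X 2) + X 0 ^ 3 * e := by
      obtain ⟨e, he⟩ := hs.2 (X 2)
      exact ⟨e, by rw [he, Ham_neg]; ring⟩
    have := cond_flow2 ρ.symm (Ham (-H)) (-(X 1 * g)) (-ε)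
      (-R + Ham H (Q + X 0 * (X 1 * g) + X 0 ^ 2 * R) - X 0 * e) hT' h1 h2
    convert this using 1
    rw [he]; ring

lemma rel_c (Q g : T3) (H ε : T3) (hT : Tang (Ham H) (X 1 * g) ε) :
    Rel (venType Q)
      (venType (Q + X 1 * g + X 0 * (C (1/2) * Ham H (X 1 * g) + Ham H Q))) := by
  obtain ⟨ρ, hρ⟩ := Ex1_all H
  have hs := hρ.symm
  set q := X 1 * g with hq
  set D := Ham H with hD
  have hD0 : ∀ a, D (X 0 * a) = X 0 * D a := by
    intro a
    rw [Derivation.leibniz, hD, Ham_X0]; simp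
  have hDC : ∀ (c : ℂ) a, D (C c * a) = C c * D a := by
    intro c a
    rw [Derivation.leibniz, MvPolynomial.derivation_C]; simp
  have hT' : Tang (Ham (-H)) (-q) (-ε) := by
    refine ⟨?_, ?_⟩
    · rw [Ham_neg, hT.1]; ring
    · rw [Ham_neg]; linear_combination -hT.2
  apply main_ext ρ hρ.1
  · obtain ⟨e, he⟩ := hρ.2 Q
    have := cond_flow1 ρ D q ε (-(C (1/2) * D (D Q)) - X 0 * e) hT (hρ.2 _) (hρ.2 _)
    convert this using 1
    rw [he]; ring
  · obtain ⟨e, he⟩ := hs.2 (Q + q + X 0 * (C (1/2) * D q + D Q))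
    have h1 : ∀ a, ∃ e, ρ.symm a = a + X 0 * Ham (-H) a
        + X 0 ^ 2 * (C (1/2) * Ham (-H) (Ham (-H) a)) + X 0 ^ 3 * e := by
      intro a
      obtain ⟨e, he⟩ := hs.2 a
      exact ⟨e, by rw [he, Ham_neg, Ham_neg, map_neg]; ring⟩
    have := cond_flow1 ρ.symm (Ham (-H)) (-q) (-ε)
      (D (C (1/2) * D q + D Q) - (C (1/2) * D (D (Q + q + X 0 * (C (1/2) * D q + D Q))))
        - X 0 * e) hT' (h1 _) (h1 _)
    convert this using 1
    rw [he, Ham_neg, map_neg]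
    simp only [map_add, hD0, ← hD]
    linear_combination (-(X 0 : T3) * D q) * half_two

/-- normal form, with control of the second-order term -/
lemma normal_form (Q : T3) : ∃ G Q1 H ε : T3, Q = e0 Q + X 1 * G + X 0 * Q1 ∧
    Tang (Ham H) (X 1 * (-G)) ε ∧
    Rel (venType Q) (X 1 + X 0 * Polynomial.aeval venW (pureP Q) + X 0 ^ 2 *
      Polynomial.aeval venW (pureP (Q1 + (C (1/2) * Ham H (X 1 * (-G)) + Ham H Q)))) := by
  obtain ⟨G, Q1, hQ⟩ := decomp Q
  obtain ⟨H, ε, hT⟩ := tang_all (-G)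
  refine ⟨G, Q1, H, ε, hQ, hT, ?_⟩
  set T := Q1 + (C (1/2) * Ham H (X 1 * (-G)) + Ham H Q) with hTdef
  obtain ⟨G2, T2, hT2⟩ := decomp T
  have r1 := rel_c Q (-G) H ε hT
  have e1 : Q + X 1 * (-G) + X 0 * (C (1/2) * Ham H (X 1 * (-G)) + Ham H Q)
      = e0 Q + X 0 * T := by
    rw [hTdef]
    linear_combination hQ
  rw [e1] at r1
  have r2 := rel_b (e0 Q + X 0 * T) (-G2) (-T2)
  have e2 : e0 Q + X 0 * T + X 0 * (X 1 * -G2) + X 0 ^ 2 * -T2 = e0 Q + X 0 * e0 T := by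
    linear_combination (X 0 : T3) * hT2
  rw [e2] at r2
  have r3 := r1.trans r2
  convert r3 using 1
  have e3 : kap (e0 Q + X 0 * e0 T) = Polynomial.aeval venW (pureP Q)
      + X 0 * Polynomial.aeval venW (pureP T) := by
    rw [map_add, map_mul, kap_e0, kap_e0, kap_X0]
  rw [venType_eq, e3]
  ring

end Vale.Agent.P295
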