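import Mathlib

/-!
Approximate Hamiltonian flows on `ℂ[x,V,W]` (Lib file for P295; no statement definitions here).
-/

namespace Vale.Agent.P295

open MvPolynomial

/-- `ℂ[x,V,W]`, with `x = X 0`, `V = X 1`, `W = X 2`. -/
abbrev T3 := MvPolynomial (Fin 3) ℂ

/-- the automorphism `ρ` is the flow of `x • D` to second order -/
def Flow1 (ρ : T3 ≃ₐ[ℂ] T3) (D : Derivation ℂ T3 T3) : Prop :=
  ρ (X 0) = X 0 ∧ ∀ a, ∃ e, ρ a = a + X 0 * D a + X 0 ^ 2 * (C (1/2) * D (D a)) + X 0 ^ 3 * e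

/-- the automorphism `ρ` is the flow of `x² • D` to first order -/
def Flow2 (ρ : T3 ≃ₐ[ℂ] T3) (D : Derivation ℂ T3 T3) : Prop :=
  ρ (X 0) = X 0 ∧ ∀ a, ∃ e, ρ a = a + X 0 ^ 2 * D a + X 0 ^ 3 * e

/-- Hamiltonian derivation -/
noncomputable def Ham (H : T3) : Derivation ℂ T3 T3 :=
  pderiv 2 H • pderiv 1 - pderiv 1 H • pderiv 2

lemma Ham_X0 (H : T3) : Ham H (X 0) = 0 := by
  simp [Ham, pderiv_X]

lemma Ham_X1 (H : T3) : Ham H (X 1) = pderiv 2 H := by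
  simp [Ham, pderiv_X]

lemma Ham_X2 (H : T3) : Ham H (X 2) = - pderiv 1 H := by
  simp [Ham, pderiv_X]

lemma Ham_apply (H a : T3) : Ham H a = pderiv 2 H * pderiv 1 a - pderiv 1 H * pderiv 2 a := by
  simp [Ham]

lemma Ham_add (H K a : T3) : Ham (H + K) a = Ham H a + Ham K a := by
  simp only [Ham_apply, map_add]
  ring

lemma Ham_neg (H a : T3) : Ham (-H) a = - Ham H a := by
  simp only [Ham_apply, map_neg]
  ring

lemma Ham_zero (a : T3) : Ham 0 a = 0 := by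
  simp only [Ham_apply, map_zero]
  ring

lemma Ham_C_mul (c : ℂ) (H a : T3) : Ham (C c * H) a = C c * Ham H a := by
  simp only [Ham_apply, Derivation.leibniz, pderiv_C, smul_eq_mul]
  ring

lemma pderiv_swap (i j : Fin 3) (a : T3) : pderiv i (pderiv j a) = pderiv j (pderiv i a) := by
  have h : ⁅(pderiv i : Derivation ℂ T3 T3), (pderiv j : Derivation ℂ T3 T3)⁆ = 0 := by
    apply MvPolynomial.derivation_ext
    intro k
    rw [Derivation.commutator_apply]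
    simp only [pderiv_X, Pi.single_apply]
    split_ifs <;> simp
  have := congrArg (fun D : Derivation ℂ T3 T3 => D a) h
  simp only [Derivation.commutator_apply, Derivation.coe_zero, Pi.zero_apply] at this
  exact sub_eq_zero.mp this

/-- commutation with Poisson bracket -/
lemma Ham_comm (H K a : T3) : Ham H (Ham K a) - Ham K (Ham H a) = Ham (Ham H K) a := by
  have e1 : ∀ b : T3, pderiv (R := ℂ) 2 (pderiv 1 b) = pderiv 1 (pderiv 2 b) :=
    fun b => pderiv_swap 2 1 b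
  simp only [Ham_apply, map_sub, Derivation.leibniz, smul_eq_mul, e1]
  ring

/-- product of algebra homs, congruence to first order -/
lemma ext2 (Φ : T3 →ₐ[ℂ] T3) (D : Derivation ℂ T3 T3)
    (h : ∀ i, ∃ e, Φ (X i) = X i + X 0 ^ 2 * D (X i) + X 0 ^ 3 * e) (a : T3) :
    ∃ e, Φ a = a + X 0 ^ 2 * D a + X 0 ^ 3 * e := by
  induction a using MvPolynomial.induction_on with
  | C c =>
    refine ⟨0, ?_⟩
    have h1 : Φ (C c) = C c := by
      exact Φ.commutes c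
    rw [h1, MvPolynomial.derivation_C]
    ring
  | add p q hp hq =>
    obtain ⟨e1, h1⟩ := hp
    obtain ⟨e2, h2⟩ := hq
    refine ⟨e1 + e2, ?_⟩
    rw [map_add, map_add, h1, h2]
    ring
  | mul_X p i hp =>
    obtain ⟨e1, h1⟩ := hp
    obtain ⟨e2, h2⟩ := h i
    refine ⟨p * e2 + e1 * X i + X 0 * (D p * D (X i)) + X 0 ^ 2 * (D p * e2 + e1 * D (X i))
      + X 0 ^ 3 * (e1 * e2), ?_⟩
    rw [map_mul, h1, h2, Derivation.leibniz]
    simp only [smul_eq_mul]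
    ring

lemma ext1 (Φ : T3 →ₐ[ℂ] T3) (D : Derivation ℂ T3 T3)
    (h : ∀ i, ∃ e, Φ (X i) = X i + X 0 * D (X i) + X 0 ^ 2 * (C (1/2) * D (D (X i)))
      + X 0 ^ 3 * e) (a : T3) :
    ∃ e, Φ a = a + X 0 * D a + X 0 ^ 2 * (C (1/2) * D (D a)) + X 0 ^ 3 * e := by
  have hhalf : (C (1/2) : T3) * 2 = 1 := by
    rw [← map_ofNat C 2, ← C_mul]
    norm_num
  induction a using MvPolynomial.induction_on with
  | C c =>
    refine ⟨0, ?_⟩
    have h1 : Φ (C c) = C c := by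
      exact Φ.commutes c
    rw [h1, MvPolynomial.derivation_C]
    simp
  | add p q hp hq =>
    obtain ⟨e1, h1⟩ := hp
    obtain ⟨e2, h2⟩ := hq
    refine ⟨e1 + e2, ?_⟩
    simp only [map_add]
    rw [h1, h2]
    ring
  | mul_X p i hp =>
    obtain ⟨e1, h1⟩ := hp
    obtain ⟨e2, h2⟩ := h i
    set xi : T3 := X i with hxi
    refine ⟨p * e2 + e1 * xi + (D p * (C (1/2) * D (D xi)) + (C (1/2) * D (D p)) * D xi)
      + X 0 * (D p * e2 + (C (1/2) * D (D p)) * (C (1/2) * D (D xi)) + e1 * D xi)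
      + X 0 ^ 2 * ((C (1/2) * D (D p)) * e2 + e1 * (C (1/2) * D (D xi)))
      + X 0 ^ 3 * (e1 * e2), ?_⟩
    rw [map_mul, h1, h2]
    simp only [Derivation.leibniz, smul_eq_mul, map_add]
    linear_combination (-(X 0 : T3)^2 * D p * D xi) * hhalf


lemma half_two : (C (1/2) : T3) * 2 = 1 := by
  rw [← map_ofNat C 2, ← C_mul]
  norm_num

/-- linear form -/
noncomputable def ell (d : ℂ) : T3 := X 1 + C d * X 2

noncomputable def gg (c d : ℂ) (k n : ℕ) : T3 := C c * X 0 ^ k * (ell d) ^ n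

noncomputable def shear (c d : ℂ) (k n j : ℕ) : T3 →ₐ[ℂ] T3 :=
  aeval ![X 0, X 1 + X 0 ^ j * (C d * gg c d k n), X 2 - X 0 ^ j * gg c d k n]

lemma shear_X0 (c d : ℂ) (k n j : ℕ) : shear c d k n j (X 0) = X 0 := by
  simp [shear]

lemma shear_X1 (c d : ℂ) (k n j : ℕ) :
    shear c d k n j (X 1) = X 1 + X 0 ^ j * (C d * gg c d k n) := by
  simp [shear]

lemma shear_X2 (c d : ℂ) (k n j : ℕ) :
    shear c d k n j (X 2) = X 2 - X 0 ^ j * gg c d k n := by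
  simp [shear]

lemma shear_C (c d : ℂ) (k n j : ℕ) (a : ℂ) : shear c d k n j (C a) = C a := by
  simpa [MvPolynomial.algebraMap_eq] using (shear c d k n j).commutes a

lemma shear_ell (c d : ℂ) (k n j : ℕ) : shear c d k n j (ell d) = ell d := by
  rw [ell, map_add, map_mul, shear_X1, shear_X2, shear_C]
  ring

lemma shear_gg (c c' d : ℂ) (k n j : ℕ) : shear c d k n j (gg c' d k n) = gg c' d k n := by
  rw [gg, map_mul, map_mul, map_pow, map_pow, shear_ell, shear_X0, shear_C]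

lemma shear_comp (c d : ℂ) (k n j : ℕ) :
    (shear c d k n j).comp (shear (-c) d k n j) = AlgHom.id ℂ T3 := by
  have hg : gg (-c) d k n = - gg c d k n := by
    simp only [gg, C_neg]
    ring
  apply MvPolynomial.algHom_ext
  intro i
  simp only [AlgHom.comp_apply, AlgHom.id_apply]
  fin_cases i
  · change shear c d k n j (shear (-c) d k n j (X 0)) = X 0
    rw [shear_X0, shear_X0]
  · change shear c d k n j (shear (-c) d k n j (X 1)) = X 1
    rw [shear_X1, map_add, map_mul, map_mul, map_pow, shear_gg, shear_X0, shear_X1, shear_C, hg]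
    ring
  · change shear c d k n j (shear (-c) d k n j (X 2)) = X 2
    rw [shear_X2, map_sub, map_mul, map_pow, shear_gg, shear_X0, shear_X2, hg]
    ring

noncomputable def shearEquiv (c d : ℂ) (k n j : ℕ) : T3 ≃ₐ[ℂ] T3 :=
  AlgEquiv.ofAlgHom (shear c d k n j) (shear (-c) d k n j) (shear_comp c d k n j)
    (by simpa using shear_comp (-c) d k n j)

lemma shearEquiv_apply (c d : ℂ) (k n j : ℕ) (a : T3) :
    shearEquiv c d k n j a = shear c d k n j a := rfl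

/-- generating Hamiltonians -/
noncomputable def HH (c d : ℂ) (k n : ℕ) : T3 := C (c / (n+1)) * X 0 ^ k * (ell d) ^ (n+1)

lemma pderiv_ell (d : ℂ) : pderiv 1 (ell d) = 1 ∧ pderiv 2 (ell d) = C d := by
  constructor
  · simp [ell, pderiv_X, Derivation.leibniz]
  · simp [ell, pderiv_X, Derivation.leibniz]

lemma Ham_HH (c d : ℂ) (k n : ℕ) :
    Ham (HH c d k n) (X 1) = C d * gg c d k n ∧ Ham (HH c d k n) (X 2) = - gg c d k n := by
  have hc : (C (c / (n+1)) : T3) * ((n : T3) + 1) = C c := by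
    have h1 : ((n : T3) + 1) = C ((n : ℂ) + 1) := by simp
    rw [h1, ← C_mul]
    congr 1
    field_simp
  have h1 : pderiv 1 (HH c d k n) = gg c d k n := by
    simp only [HH, Derivation.leibniz, Derivation.leibniz_pow, pderiv_C, pderiv_X,
      smul_eq_mul, (pderiv_ell d).1]
    simp only [gg, Nat.add_sub_cancel, Pi.single_apply]
    simp
    linear_combination (X 0 ^ k * ell d ^ n) * hc
  have h2 : pderiv 2 (HH c d k n) = C d * gg c d k n := by
    simp only [HH, Derivation.leibniz, Derivation.leibniz_pow, pderiv_C, pderiv_X,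
      smul_eq_mul, (pderiv_ell d).2]
    simp only [gg, Nat.add_sub_cancel, Pi.single_apply]
    simp
    linear_combination (X 0 ^ k * ell d ^ n * C d) * hc
  rw [Ham_X1, Ham_X2, h1, h2]
  exact ⟨rfl, rfl⟩

lemma Ham_HH_gg (c d : ℂ) (k n : ℕ) : Ham (HH c d k n) (gg c d k n) = 0 := by
  have h : Ham (HH c d k n) (ell d) = 0 := by
    rw [ell, map_add, Derivation.leibniz, (Ham_HH c d k n).1, (Ham_HH c d k n).2,
      MvPolynomial.derivation_C]
    simp
  rw [gg, Derivation.leibniz, Derivation.leibniz, Derivation.leibniz_pow, Derivation.leibniz_pow,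
    h, Ham_X0, MvPolynomial.derivation_C]
  simp

lemma flow1_shear (c d : ℂ) (k n : ℕ) : Flow1 (shearEquiv c d k n 1) (Ham (HH c d k n)) := by
  refine ⟨shear_X0 _ _ _ _ _, ?_⟩
  apply ext1 (shear c d k n 1)
  intro i
  refine ⟨0, ?_⟩
  fin_cases i
  · change shear c d k n 1 (X 0) = X 0 + X 0 * Ham (HH c d k n) (X 0) +
      X 0 ^ 2 * (C (1/2) * Ham (HH c d k n) (Ham (HH c d k n) (X 0))) + X 0 ^ 3 * 0
    rw [shear_X0, Ham_X0]
    simp
  · change shear c d k n 1 (X 1) = X 1 + X 0 * Ham (HH c d k n) (X 1) +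
      X 0 ^ 2 * (C (1/2) * Ham (HH c d k n) (Ham (HH c d k n) (X 1))) + X 0 ^ 3 * 0
    rw [shear_X1, (Ham_HH c d k n).1, Derivation.leibniz, Ham_HH_gg, MvPolynomial.derivation_C]
    simp
  · change shear c d k n 1 (X 2) = X 2 + X 0 * Ham (HH c d k n) (X 2) +
      X 0 ^ 2 * (C (1/2) * Ham (HH c d k n) (Ham (HH c d k n) (X 2))) + X 0 ^ 3 * 0
    rw [shear_X2, (Ham_HH c d k n).2, map_neg, Ham_HH_gg]
    simp
    ring

lemma flow2_shear (c d : ℂ) (k n : ℕ) : Flow2 (shearEquiv c d k n 2) (Ham (HH c d k n)) := by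
  refine ⟨shear_X0 _ _ _ _ _, ?_⟩
  apply ext2 (shear c d k n 2)
  intro i
  refine ⟨0, ?_⟩
  fin_cases i
  · change shear c d k n 2 (X 0) = X 0 + X 0 ^ 2 * Ham (HH c d k n) (X 0) + X 0 ^ 3 * 0
    rw [shear_X0, Ham_X0]
    simp
  · change shear c d k n 2 (X 1) = X 1 + X 0 ^ 2 * Ham (HH c d k n) (X 1) + X 0 ^ 3 * 0
    rw [shear_X1, (Ham_HH c d k n).1]
    simp
  · change shear c d k n 2 (X 2) = X 2 + X 0 ^ 2 * Ham (HH c d k n) (X 2) + X 0 ^ 3 * 0
    rw [shear_X2, (Ham_HH c d k n).2]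
    simp
    ring

lemma Flow2.symm {ρ : T3 ≃ₐ[ℂ] T3} {D : Derivation ℂ T3 T3} (h : Flow2 ρ D) :
    ρ.symm (X 0) = X 0 ∧ ∀ a, ∃ e, ρ.symm a = a - X 0 ^ 2 * D a + X 0 ^ 3 * e := by
  have h0 : ρ.symm (X 0) = X 0 := by
    rw [AlgEquiv.symm_apply_eq, h.1]
  refine ⟨h0, fun a => ?_⟩
  obtain ⟨e, he⟩ := h.2 a
  obtain ⟨e', he'⟩ := h.2 (D a)
  have h1 := congrArg ρ.symm he
  have h2 := congrArg ρ.symm he'
  simp only [AlgEquiv.symm_apply_apply, map_add, map_mul, map_pow, h0] at h1 h2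
  refine ⟨X 0 * ρ.symm (D (D a)) + X 0 ^ 2 * ρ.symm e' - ρ.symm e, ?_⟩
  linear_combination -h1 + X 0 ^ 2 * h2

lemma Flow1.symm {ρ : T3 ≃ₐ[ℂ] T3} {D : Derivation ℂ T3 T3} (h : Flow1 ρ D) :
    ρ.symm (X 0) = X 0 ∧
      ∀ a, ∃ e, ρ.symm a = a - X 0 * D a + X 0 ^ 2 * (C (1/2) * D (D a)) + X 0 ^ 3 * e := by
  have h0 : ρ.symm (X 0) = X 0 := by
    rw [AlgEquiv.symm_apply_eq, h.1]
  have hC : ρ.symm (C (1/2)) = C (1/2) := by
    simpa [MvPolynomial.algebraMap_eq] using ρ.symm.commutes (1/2)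
  refine ⟨h0, fun a => ?_⟩
  obtain ⟨e, he⟩ := h.2 a
  obtain ⟨e', he'⟩ := h.2 (D a)
  obtain ⟨e'', he''⟩ := h.2 (D (D a))
  have h1 := congrArg ρ.symm he
  have h2 := congrArg ρ.symm he'
  have h3 := congrArg ρ.symm he''
  simp only [AlgEquiv.symm_apply_apply, map_add, map_mul, map_pow, h0, hC] at h1 h2 h3
  -- a = A + x B + x²/2 Cc + x³ E ; B' etc
  set A1 := ρ.symm a
  set B1 := ρ.symm (D a)
  set C1 := ρ.symm (D (D a))
  set D1 := ρ.symm (D (D (D a)))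
  set E1 := ρ.symm (D (D (D (D a))))
  refine ⟨-ρ.symm e + C (1/2) * D1 + X 0 * ρ.symm e' -
    C (1/2) * (D1 + X 0 * (C (1/2) * E1) + X 0 ^ 2 * ρ.symm e''), ?_⟩
  linear_combination -h1 + X 0 * h2 - X 0 ^ 2 * C (1/2) * h3 + (-X 0 ^ 2 * C1) * half_two

lemma Flow2.comp {ρ1 ρ2 : T3 ≃ₐ[ℂ] T3} {H1 H2 : T3} (h1 : Flow2 ρ1 (Ham H1))
    (h2 : Flow2 ρ2 (Ham H2)) : Flow2 (ρ2.trans ρ1) (Ham (H1 + H2)) := by
  refine ⟨by simp [h1.1, h2.1], fun a => ?_⟩
  obtain ⟨e, he⟩ := h2.2 a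
  obtain ⟨e1, he1⟩ := h1.2 a
  obtain ⟨e2, he2⟩ := h1.2 (Ham H2 a)
  refine ⟨e1 + X 0 * (Ham H1 (Ham H2 a)) + X 0 ^ 2 * e2 + ρ1 e, ?_⟩
  rw [AlgEquiv.trans_apply, he, map_add, map_add, map_mul, map_mul, map_pow, map_pow, h1.1, he1,
    he2, Ham_add]
  ring

/-- existence of an automorphism which is the `x²`-flow of `H` to first order -/
def Ex2 (H : T3) : Prop := ∃ ρ : T3 ≃ₐ[ℂ] T3, Flow2 ρ (Ham H)

lemma Ex2.add {H1 H2 : T3} (h1 : Ex2 H1) (h2 : Ex2 H2) : Ex2 (H1 + H2) := by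
  obtain ⟨ρ1, h1⟩ := h1
  obtain ⟨ρ2, h2⟩ := h2
  exact ⟨_, h1.comp h2⟩

end Vale.Agent.P295
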