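import Vale.Agent.Lib.P295.Final

/-!
# P295: auxiliary facts for the second statement
-/

namespace Vale.Agent.P295.Second

open MvPolynomial

/-- `f` is a coordinate of `ℂ[X_0, …, X_{n-1}]`: there are `g_0, …, g_{n-1}`, one of them equal to
`f`, that generate the polynomial ring: `ℂ[g_0, …, g_{n-1}] = ℂ[X_0, …, X_{n-1}]` -/
def CoordinateN {n : ℕ} (f : MvPolynomial (Fin n) ℂ) : Prop :=
  ∃ g : Fin n → MvPolynomial (Fin n) ℂ, (∃ i, g i = f) ∧ Algebra.adjoin ℂ (Set.range g) = ⊤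

theorem adjoin_of_aut {n : ℕ} (σ : MvPolynomial (Fin n) ℂ ≃ₐ[ℂ] MvPolynomial (Fin n) ℂ)
    (g : Fin n → MvPolynomial (Fin n) ℂ) (h : Algebra.adjoin ℂ (Set.range g) = ⊤) :
    Algebra.adjoin ℂ (Set.range fun i => σ (g i)) = ⊤ := by
  have h1 : (Set.range fun i => σ (g i)) = (σ : MvPolynomial (Fin n) ℂ →ₐ[ℂ] _) '' Set.range g := by
    ext a
    constructor
    · rintro ⟨i, rfl⟩
      exact ⟨g i, ⟨i, rfl⟩, rfl⟩
    · rintro ⟨_, ⟨i, rfl⟩, rfl⟩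
      exact ⟨i, rfl⟩
  rw [h1, ← AlgHom.map_adjoin, h, Algebra.map_top]
  exact (AlgHom.range_eq_top _).2 σ.surjective

theorem coord_of_aut {n : ℕ} (σ : MvPolynomial (Fin n) ℂ ≃ₐ[ℂ] MvPolynomial (Fin n) ℂ)
    {f : MvPolynomial (Fin n) ℂ} (h : CoordinateN f) : CoordinateN (σ f) := by
  obtain ⟨g, ⟨i, hi⟩, h2⟩ := h
  exact ⟨fun i => σ (g i), ⟨i, congrArg σ hi⟩, adjoin_of_aut σ g h2⟩

theorem coord_iff_aut {n : ℕ} (σ : MvPolynomial (Fin n) ℂ ≃ₐ[ℂ] MvPolynomial (Fin n) ℂ)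
    {f g : MvPolynomial (Fin n) ℂ} (h : σ f = g) : CoordinateN f ↔ CoordinateN g := by
  subst h
  refine ⟨coord_of_aut σ, fun h => ?_⟩
  have := coord_of_aut σ.symm h
  rwa [AlgEquiv.symm_apply_apply] at this

theorem adjoin_X {n : ℕ} : Algebra.adjoin ℂ (Set.range (X : Fin n → MvPolynomial (Fin n) ℂ)) = ⊤ :=
  MvPolynomial.adjoin_range_X

end Vale.Agent.P295.Second
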