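import Mathlib

/-!
# P295: definitions for the second statement

`ℂ[x,y,z,u] = MvPolynomial (Fin 4) ℂ`, with `x, y, z, u = X 0, X 1, X 2, X 3`.
-/

namespace Vale.Agent.P295.Second

open MvPolynomial

/-- `p = y u + z²` -/
noncomputable def p : MvPolynomial (Fin 4) ℂ := X 1 * X 3 + X 2 ^ 2

/-- `v = x z + y p` -/
noncomputable def v : MvPolynomial (Fin 4) ℂ := X 0 * X 2 + X 1 * p

/-- `w = x² u - 2 x z p - y p²` -/
noncomputable def w : MvPolynomial (Fin 4) ℂ := X 0 ^ 2 * X 3 - 2 * X 0 * X 2 * p - X 1 * p ^ 2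

/-- `f_Q = y + x Q(x, v, w)` -/
noncomputable def f (Q : MvPolynomial (Fin 3) ℂ) : MvPolynomial (Fin 4) ℂ :=
  X 1 + X 0 * aeval ![X 0, v, w] Q

/-- `Q(0, 0, t)` -/
noncomputable def at00 (Q : MvPolynomial (Fin 3) ℂ) : Polynomial ℂ := aeval ![0, 0, Polynomial.X] Q

/-- `f` is a coordinate of `ℂ[x,y,z,u]`: there are `g_0, …, g_3`, one of them equal to `f`, with
`ℂ[g_0, …, g_3] = ℂ[x,y,z,u]` -/
def Coordinate (f : MvPolynomial (Fin 4) ℂ) : Prop :=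
  ∃ g : Fin 4 → MvPolynomial (Fin 4) ℂ, (∃ i, g i = f) ∧ Algebra.adjoin ℂ (Set.range g) = ⊤

end Vale.Agent.P295.Second
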