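import Vale.Agent.Lib.P295.SecondDefs
import Vale.Agent.Lib.P295.Second
import Vale.Agent.Results.P295.VenereauNormalForm

/-!
# P295: proof of the second statement
-/

namespace Vale.Agent.P295.Second

open MvPolynomial

theorem main :
    -- (1) if `Q(0,0,t)` and `∂Q/∂x(0,0,t) + (t/4) (∂Q/∂v(0,0,t))²` are constants, then `f_Q` is a
    -- coordinate; even `ℂ[x, f_Q, g, h] = ℂ[x,y,z,u]` for some `g, h`
    (∀ (Q : MvPolynomial (Fin 3) ℂ) (c d : ℂ), at00 Q = Polynomial.C c →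
      at00 (pderiv 0 Q) + Polynomial.C (1 / 4) * Polynomial.X * at00 (pderiv 1 Q) ^ 2 =
        Polynomial.C d →
      Coordinate (f Q) ∧
      ∃ g h : MvPolynomial (Fin 4) ℂ, Algebra.adjoin ℂ {X 0, f Q, g, h} = ⊤) ∧
    -- (2) examples
    (∀ k : ℕ, 2 ≤ k → Coordinate (X 1 + X 0 * v ^ k)) ∧
    Coordinate (X 1 + X 0 * v - C (1 / 4) * X 0 ^ 2 * w) ∧
    -- (3) the first Vénéreau polynomial `b_1 = y + x v`
    (Coordinate (X 1 + X 0 * v) ↔ Coordinate (X 1 + C (1 / 4) * X 0 ^ 2 * w)) ∧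
    -- (4) for every `Q` and `s`-term: `f_Q` is a coordinate iff its normal form is
    (∀ (Q : MvPolynomial (Fin 3) ℂ), ∃ s : Polynomial ℂ,
      (Coordinate (f Q) ↔ Coordinate (X 1 + X 0 * Polynomial.aeval w (at00 Q) +
        X 0 ^ 2 * Polynomial.aeval w s)) ∧
      ∃ σ : MvPolynomial (Fin 4) ℂ ≃ₐ[ℂ] MvPolynomial (Fin 4) ℂ, σ (X 0) = X 0 ∧
        σ (f Q) = X 1 + X 0 * Polynomial.aeval w (at00 Q) + X 0 ^ 2 * Polynomial.aeval w s) ∧
    -- (5) if `Q(0,0,t) = c` is constant, then the normal form is explicit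
    (∀ (Q : MvPolynomial (Fin 3) ℂ) (c : ℂ), at00 Q = Polynomial.C c →
      ∃ σ : MvPolynomial (Fin 4) ℂ ≃ₐ[ℂ] MvPolynomial (Fin 4) ℂ, σ (X 0) = X 0 ∧
        σ (f Q) = X 1 + X 0 * C c + X 0 ^ 2 * Polynomial.aeval w
          (at00 (pderiv 0 Q) +
            Polynomial.C (1 / 4) * Polynomial.X * at00 (pderiv 1 Q) ^ 2)) := by
  have hN := Vale.Agent.Results.P295.VenereauNormalForm.result
  have h1 : ∀ (Q : MvPolynomial (Fin 3) ℂ) (c d : ℂ), at00 Q = Polynomial.C c →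
      at00 (pderiv 0 Q) + Polynomial.C (1 / 4) * Polynomial.X * at00 (pderiv 1 Q) ^ 2 =
        Polynomial.C d →
      Coordinate (f Q) ∧
      ∃ g h : MvPolynomial (Fin 4) ℂ, Algebra.adjoin ℂ {X 0, f Q, g, h} = ⊤ := by
    intro Q c d hc hd
    obtain ⟨-, σ, s0, s1⟩ := (hN Q).2.2 c d hc hd
    have s1' : σ (X 1) = f Q := s1
    have hadj := Vale.Agent.P295.Second.adjoin_of_aut σ X Vale.Agent.P295.Second.adjoin_X
    refine ⟨⟨fun i => σ (X i), ⟨1, s1'⟩, hadj⟩, σ (X 2), σ (X 3), ?_⟩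
    rw [← hadj, ← s1']
    congr 1
    ext a
    constructor
    · rintro (rfl | rfl | rfl | rfl)
      · exact ⟨0, s0⟩
      · exact ⟨1, rfl⟩
      · exact ⟨2, rfl⟩
      · exact ⟨3, rfl⟩
    · rintro ⟨i, rfl⟩
      fin_cases i
      · left; exact s0
      · right; left; rfl
      · right; right; left; rfl
      · right; right; right; rfl
  have h5 : ∀ (Q : MvPolynomial (Fin 3) ℂ) (c : ℂ), at00 Q = Polynomial.C c →
      ∃ σ : MvPolynomial (Fin 4) ℂ ≃ₐ[ℂ] MvPolynomial (Fin 4) ℂ, σ (X 0) = X 0 ∧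
        σ (f Q) = X 1 + X 0 * C c + X 0 ^ 2 * Polynomial.aeval w
          (at00 (pderiv 0 Q) +
            Polynomial.C (1 / 4) * Polynomial.X * at00 (pderiv 1 Q) ^ 2) :=
    fun Q c hc => (hN Q).2.1 c hc
  refine ⟨h1, ?_, ?_, ?_, ?_, h5⟩
  · intro k hk
    have hf : f (X 1 ^ k) = X 1 + X 0 * v ^ k := by simp [f]
    rw [← hf]
    refine (h1 (X 1 ^ k) 0 0 ?_ ?_).1
    · simp [at00, zero_pow (by omega : k ≠ 0)]
    · obtain ⟨j, rfl⟩ : ∃ j, k = j + 2 := ⟨k - 2, by omega⟩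
      simp [at00, Derivation.leibniz_pow]
  · have hf : f (X 1 - C (1 / 4) * X 0 * X 2) = X 1 + X 0 * v - C (1 / 4) * X 0 ^ 2 * w := by
      simp only [f, map_sub, map_mul, aeval_X, aeval_C]
      simp
      ring
    rw [← hf]
    refine (h1 _ 0 0 ?_ ?_).1
    · simp [at00]
    · simp [at00, Derivation.leibniz]
  · have hf : f (X 1) = X 1 + X 0 * v := by simp [f]
    obtain ⟨σ, -, s1⟩ := h5 (X 1) 0 (by simp [at00])
    rw [hf] at s1
    refine Vale.Agent.P295.Second.coord_iff_aut σ (s1.trans ?_)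
    simp [at00]
    ring
  · intro Q
    obtain ⟨s, σ, s0, s1⟩ := (hN Q).1
    exact ⟨s, Vale.Agent.P295.Second.coord_iff_aut σ s1, σ, s0, s1⟩

end Vale.Agent.P295.Second
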